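import Vale.Agent.Lib.P062.Trans

/-! Board-generic versions of the soundness and composition lemmas for the Snaky certificates. The same
certificates give a Maker win on every board that contains the cells they use and has enough cells for
Breaker to always have a legal reply. -/

namespace Vale.Agent.Lib.P062.B

/-- Every window cell of the mask `M` lies on the board `Bd`. -/
def RegIn (Bd : Set (ℤ × ℤ)) (M : ℕ) : Prop :=
  ∀ j, j < 1024 → M.testBit j = true → cellOf j ∈ Bd

/-- `Ok C u i`: the masks `u` and `C` are disjoint and, on every board `Bd` that contains the window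
cells of `C` and `u` and a finite set `F` of cells that is large compared with the number of stones, in
the position where Maker owns the cells of the mask `C`, Maker wins against every Breaker set that avoids
the mask `u` and whose last stone `d` lies outside the mask `i`. -/
def Ok (C u : ℕ) (i : Option ℕ) : Prop :=
  (∀ j, u.testBit j = true → C.testBit j = false) ∧
  ∀ (Bd : Set (ℤ × ℤ)) (F : Finset (ℤ × ℤ)), (∀ x ∈ F, x ∈ Bd) → RegIn Bd (C ||| u) →
    ∀ (B : Finset (ℤ × ℤ)), (dec C).card + B.card + 2 * (dec u).card + 2 ≤ F.card →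
      Avoid u B → (∀ x ∈ dec C, x ∉ B) → ∀ d, d ∉ dec C → d ∉ B → Out i d →
        MakerWins Bd (dec C) (insert d B)

theorem exists_reply {Bd : Set (ℤ × ℤ)} {F : Finset (ℤ × ℤ)} (hF : ∀ x ∈ F, x ∈ Bd)
    (S T : Finset (ℤ × ℤ)) (h : S.card + T.card < F.card) : ∃ d, d ∈ Bd ∧ d ∉ S ∧ d ∉ T := by
  have h1 : (S ∪ T).card < F.card := lt_of_le_of_lt (Finset.card_union_le S T) h
  obtain ⟨d, hdF, hd⟩ := Finset.exists_mem_notMem_of_card_lt_card h1
  rw [Finset.mem_union, not_or] at hd
  exact ⟨d, hF d hdF, hd.1, hd.2⟩

theorem dec_subset {u v : ℕ} (h : ∀ j, u.testBit j = true → v.testBit j = true) : dec u ⊆ dec v := by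
  unfold dec
  apply Finset.image_subset_image
  intro i hi
  rw [Finset.mem_filter] at hi ⊢
  exact ⟨hi.1, h i hi.2⟩

theorem card_dec_mono {u v : ℕ} (h : ∀ j, u.testBit j = true → v.testBit j = true) :
    (dec u).card ≤ (dec v).card := Finset.card_le_card (dec_subset h)

theorem card_dec_or_pow {C b : ℕ} (hb : b < 1024) (hCb : C.testBit b = false) :
    (dec (C ||| 2 ^ b)).card = (dec C).card + 1 := by
  rw [dec_or_pow hb, Finset.card_insert_of_notMem]
  rw [mem_dec hb, hCb]
  simp

theorem exists_of_mem_dec {C : ℕ} {x : ℤ × ℤ} (h : x ∈ dec C) :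
    ∃ j, j < 1024 ∧ C.testBit j = true ∧ cellOf j = x := by
  unfold dec at h
  simp only [Finset.mem_image, Finset.mem_filter, Finset.mem_range] at h
  obtain ⟨j, ⟨hj, hb⟩, rfl⟩ := h
  exact ⟨j, hj, hb, rfl⟩

theorem ok_nil (C : ℕ) : Ok C 0 none := by
  refine ⟨fun j h => ?_, ?_⟩
  · rw [Nat.zero_testBit] at h
    exact absurd h (by simp)
  · intro Bd F _ _ B _ _ _ d _ _ hout
    exact absurd hout (by simp [Out])

theorem ok_mono {C u w : ℕ} {i : Option ℕ} (h : Ok C u i)
    (hsub : ∀ j, u.testBit j = true → w.testBit j = true)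
    (hw : ∀ j, w.testBit j = true → C.testBit j = false) : Ok C w i := by
  refine ⟨hw, ?_⟩
  intro Bd F hF hreg B hcard hav hdis d hdC hdB hout
  refine h.2 Bd F hF ?_ B ?_ ?_ hdis d hdC hdB hout
  · intro j hj hbit
    apply hreg j hj
    rw [Nat.testBit_or, Bool.or_eq_true] at hbit ⊢
    rcases hbit with hb | hb
    · exact Or.inl hb
    · exact Or.inr (hsub j hb)
  · have := card_dec_mono hsub
    omega
  · intro j hj hbit
    exact hav j hj (hsub j hbit)

theorem ok_union {C u1 u2 m1 m2 : ℕ} (h1 : Ok C u1 (some m1)) (h2 : Ok C u2 (some m2)) :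
    Ok C (u1 ||| u2) (some (m1 &&& m2)) := by
  have hw : ∀ j, (u1 ||| u2).testBit j = true → C.testBit j = false := by
    intro j hj
    rw [Nat.testBit_or, Bool.or_eq_true] at hj
    rcases hj with hj | hj
    · exact h1.1 j hj
    · exact h2.1 j hj
  have h1w : Ok C (u1 ||| u2) (some m1) :=
    ok_mono h1 (fun j hj => by rw [Nat.testBit_or, hj, Bool.true_or]) hw
  have h2w : Ok C (u1 ||| u2) (some m2) :=
    ok_mono h2 (fun j hj => by rw [Nat.testBit_or, hj, Bool.or_true]) hw
  refine ⟨hw, ?_⟩
  intro Bd F hF hreg B hcard hav hdis d hdC hdB hout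
  by_cases hwin : ∃ j, j < 1024 ∧ cellOf j = d
  · obtain ⟨j, hj, hjd⟩ := hwin
    have hbit : (m1 &&& m2).testBit j = false := hout j hj hjd
    rw [Nat.testBit_and] at hbit
    cases hm1 : m1.testBit j
    · refine h1w.2 Bd F hF hreg B hcard hav hdis d hdC hdB ?_
      intro j' _ hj'd
      have : j' = j := cellOf_inj (hj'd.trans hjd.symm)
      rw [this]
      exact hm1
    · rw [hm1, Bool.true_and] at hbit
      refine h2w.2 Bd F hF hreg B hcard hav hdis d hdC hdB ?_
      intro j' _ hj'd
      have : j' = j := cellOf_inj (hj'd.trans hjd.symm)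
      rw [this]
      exact hbit
  · refine h1w.2 Bd F hF hreg B hcard hav hdis d hdC hdB ?_
    intro j hj hjd
    exact absurd ⟨j, hj, hjd⟩ hwin

theorem ok_inter {C u0 z Z : ℕ} {i0 : Option ℕ} (h0 : Ok C u0 i0) (hz : Ok C z (some Z)) :
    Ok C (u0 ||| z) (some (interZ i0 Z)) := by
  cases i0 with
  | none =>
    refine ok_mono hz (fun j hj => by rw [Nat.testBit_or, hj, Bool.or_true]) ?_
    intro j hj
    rw [Nat.testBit_or, Bool.or_eq_true] at hj
    rcases hj with hj | hj
    · exact h0.1 j hj
    · exact hz.1 j hj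
  | some m => exact ok_union h0 hz

theorem ok_win {C b : ℕ} {s a e : Bool} {tx ty : ℕ} (hb : b < 1024) (hCb : C.testBit b = false)
    (hcopy : copyOK C b s a e tx ty = true) : Ok C (2 ^ b) (some (2 ^ b)) := by
  refine ⟨?_, ?_⟩
  · intro j hj
    rw [Nat.testBit_two_pow] at hj
    simp only [decide_eq_true_eq] at hj
    rw [← hj]
    exact hCb
  · intro Bd F hF hreg B hcard hav hdis d hdC hdB hout
    have hbd : cellOf b ≠ d := by
      intro h
      have := hout b hb h
      rw [Nat.testBit_two_pow] at this
      simp at this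
    obtain ⟨W, hW, _, hsub⟩ := copyOK_sound hcopy
    have hbBd : cellOf b ∈ Bd :=
      hreg b hb (by rw [Nat.testBit_or, Nat.testBit_two_pow]; simp)
    refine MakerWins.win _ _ (cellOf b) hbBd ?_ ?_ ⟨W, hW, ?_, hsub⟩
    · rw [mem_dec hb, hCb]
      simp
    · rw [Finset.mem_insert, not_or]
      exact ⟨hbd, hav b hb (by rw [Nat.testBit_two_pow]; simp)⟩
    · intro x hx
      have hx' := hsub hx
      rw [Finset.mem_insert] at hx'
      rcases hx' with rfl | hx'
      · exact hbBd
      · obtain ⟨j, hj, hbit, rfl⟩ := exists_of_mem_dec hx'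
        exact hreg j hj (by rw [Nat.testBit_or, hbit, Bool.true_or])

theorem ok_go {C b u' : ℕ} (hb : b < 1024) (hCb : C.testBit b = false)
    (h : Ok (C ||| 2 ^ b) u' (some 0)) : Ok C (u' ||| 2 ^ b) (some (u' ||| 2 ^ b)) := by
  have hu'b : u'.testBit b = false := by
    by_contra hne
    have h1 := h.1 b (eq_true_of_ne_false hne)
    rw [Nat.testBit_or, Nat.testBit_two_pow] at h1
    simp at h1
  refine ⟨?_, ?_⟩
  · intro j hj
    rw [Nat.testBit_or, Bool.or_eq_true] at hj
    rcases hj with hj | hj
    · have h1 := h.1 j hj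
      rw [Nat.testBit_or, Bool.or_eq_false_iff] at h1
      exact h1.1
    · rw [Nat.testBit_two_pow] at hj
      simp only [decide_eq_true_eq] at hj
      rw [← hj]
      exact hCb
  · intro Bd F hF hreg B hcard hav hdis d hdC hdB hout
    obtain ⟨havu', havb⟩ := avoid_mono hav
    have hz : ¬ ∃ j, j < 1024 ∧ cellOf j = d ∧ (u' ||| 2 ^ b).testBit j = true := by
      rintro ⟨j, hj, hjd, hbit⟩
      have := hout j hj hjd
      rw [hbit] at this
      exact absurd this (by simp)
    have hbd : cellOf b ≠ d := by
      intro hbd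
      exact hz ⟨b, hb, hbd, by rw [Nat.testBit_or, Nat.testBit_two_pow]; simp⟩
    have hbC : cellOf b ∉ dec C := by
      rw [mem_dec hb, hCb]
      simp
    have hbB : cellOf b ∉ insert d B := by
      rw [Finset.mem_insert, not_or]
      exact ⟨hbd, havb b hb (by rw [Nat.testBit_two_pow]; simp)⟩
    have hbBd : cellOf b ∈ Bd :=
      hreg b hb (by rw [Nat.testBit_or, Nat.testBit_or, Nat.testBit_two_pow]; simp)
    have hcu : (dec (u' ||| 2 ^ b)).card = (dec u').card + 1 := card_dec_or_pow hb hu'b
    have hcC : (dec (C ||| 2 ^ b)).card = (dec C).card + 1 := card_dec_or_pow hb hCb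
    have hcB : (insert d B).card ≤ B.card + 1 := Finset.card_insert_le d B
    have hcM : (insert (cellOf b) (dec C)).card ≤ (dec C).card + 1 := Finset.card_insert_le _ _
    refine MakerWins.step _ _ (cellOf b) hbBd hbC hbB (exists_reply hF _ _ (by omega)) ?_
    intro d' _ hd'1 hd'2
    rw [← dec_or_pow hb] at hd'1 ⊢
    refine h.2 Bd F hF ?_ (insert d B) (by omega) ?_ ?_ d' hd'1 hd'2 (outM_zero d')
    · intro j hj hbit
      apply hreg j hj
      rw [Nat.testBit_or, Nat.testBit_or] at hbit
      rw [Nat.testBit_or, Nat.testBit_or]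
      cases hC : C.testBit j <;> cases hp : (2 ^ b).testBit j <;> cases hu : u'.testBit j <;>
        simp [hC, hp, hu] at hbit ⊢
    · intro j hj hbit
      rw [Finset.mem_insert, not_or]
      refine ⟨?_, havu' j hj hbit⟩
      intro hjd
      exact hz ⟨j, hj, hjd, by rw [Nat.testBit_or, hbit, Bool.true_or]⟩
    · intro x hx
      rw [dec_or_pow hb, Finset.mem_insert] at hx
      rcases hx with rfl | hx
      · exact hbB
      · rw [Finset.mem_insert, not_or]
        refine ⟨?_, hdis x hx⟩
        rintro rfl
        exact hdC hx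

/-- Soundness of the checker on every admissible board. -/
theorem chk_sound : ∀ (pt : PT) (C u : ℕ) (i : Option ℕ), chk C pt = some (u, i) → Ok C u i := by
  intro pt
  induction pt with
  | nil =>
    intro C u i h
    rw [chk] at h
    simp only [Option.some.injEq, Prod.mk.injEq] at h
    rw [← h.1, ← h.2]
    exact ok_nil C
  | win b s a e tx ty rest ih =>
    intro C u i h
    rw [chk] at h
    split at h
    · rename_i hcond
      simp only [Bool.and_eq_true, Nat.blt_eq, Bool.not_eq_true'] at hcond
      obtain ⟨⟨hb, hCb⟩, hcopy⟩ := hcond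
      cases hr : chk C rest with
      | none => rw [hr] at h; exact absurd h (by simp)
      | some p =>
        obtain ⟨u0, i0⟩ := p
        rw [hr] at h
        simp only [Option.some.injEq, Prod.mk.injEq] at h
        obtain ⟨hu, hi⟩ := h
        subst hu
        subst hi
        exact ok_inter (ih C u0 i0 hr) (ok_win hb hCb hcopy)
    · exact absurd h (by simp)
  | go b child rest ihc ihr =>
    intro C u i h
    rw [chk] at h
    split at h
    · rename_i hcond
      simp only [Bool.and_eq_true, Nat.blt_eq, Bool.not_eq_true'] at hcond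
      obtain ⟨hb, hCb⟩ := hcond
      split at h
      · rename_i u' hc
        cases hr : chk C rest with
        | none => rw [hr] at h; exact absurd h (by simp)
        | some p =>
          obtain ⟨u0, i0⟩ := p
          rw [hr] at h
          simp only [Option.some.injEq, Prod.mk.injEq] at h
          obtain ⟨hu, hi⟩ := h
          subst hu
          subst hi
          exact ok_inter (ihr C u0 i0 hr) (ok_go hb hCb (ihc _ _ _ hc))
      · exact absurd h (by simp)
    · exact absurd h (by simp)

theorem ok_of_chkB {C : ℕ} {pt : PT} {u m : ℕ} (h : chkB C pt u m = true) : Ok C u (some m) :=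
  chk_sound pt C u (some m) (chk_of_chkB h)

/-- Combination of a list of verified option groups `(u, m)` of one position. -/
theorem ok_list {C : ℕ} (parts : List (ℕ × ℕ)) :
    ∀ (u0 m0 : ℕ), Ok C u0 (some m0) → (∀ p ∈ parts, Ok C p.1 (some p.2)) →
      Ok C (parts.foldl (fun a p => a ||| p.1) u0) (some (parts.foldl (fun a p => a &&& p.2) m0)) := by
  induction parts with
  | nil => intro u0 m0 h0 _; exact h0
  | cons p l ih =>
    intro u0 m0 h0 h
    rw [List.foldl_cons, List.foldl_cons]
    exact ih _ _ (ok_union h0 (h p List.mem_cons_self)) (fun q hq => h q (List.mem_cons_of_mem _ hq))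

theorem ok_cast {C u m u' m' : ℕ} (h : Ok C u (some m)) (hu : u = u') (hm : m = m') :
    Ok C u' (some m') := by
  subst hu
  subst hm
  exact h

/-- `ok_go` with the masks given explicitly; the side conditions are one Boolean computation. -/
theorem ok_go' (C b u' C' U : ℕ)
    (hside : (Nat.blt b 1024 && !C.testBit b && Nat.beq (C ||| 2 ^ b) C' && Nat.beq (u' ||| 2 ^ b) U) = true)
    (h : Ok C' u' (some 0)) : Ok C U (some U) := by
  simp only [Bool.and_eq_true, Nat.blt_eq, Bool.not_eq_true'] at hside
  obtain ⟨⟨⟨hb, hCb⟩, hC'⟩, hU⟩ := hside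
  have hC'' := Nat.eq_of_beq_eq_true hC'
  have hU' := Nat.eq_of_beq_eq_true hU
  subst hC''
  subst hU'
  exact ok_go hb hCb h

/-- `ok_list` with the resulting masks given explicitly. -/
theorem ok_list' {C : ℕ} (parts : List (ℕ × ℕ)) (u0 m0 U M : ℕ) (h0 : Ok C u0 (some m0))
    (h : ∀ p ∈ parts, Ok C p.1 (some p.2))
    (hside : (Nat.beq (parts.foldl (fun a p => a ||| p.1) u0) U &&
      Nat.beq (parts.foldl (fun a p => a &&& p.2) m0) M) = true) : Ok C U (some M) := by
  rw [Bool.and_eq_true] at hside
  exact ok_cast (ok_list parts u0 m0 h0 h) (Nat.eq_of_beq_eq_true hside.1) (Nat.eq_of_beq_eq_true hside.2)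

theorem all_nil {C : ℕ} : ∀ p ∈ ([] : List (ℕ × ℕ)), Ok C p.1 (some p.2) :=
  fun _ h => absurd h List.not_mem_nil

theorem all_cons {C u m : ℕ} {l : List (ℕ × ℕ)} (h : Ok C u (some m))
    (hl : ∀ p ∈ l, Ok C p.1 (some p.2)) : ∀ p ∈ (u, m) :: l, Ok C p.1 (some p.2) := by
  intro p hp
  rw [List.mem_cons] at hp
  rcases hp with rfl | hp
  · exact h
  · exact hl p hp

/-- The union of the masks `u` of the eleven root certificates: every cell that Maker's strategy may
ever play. -/
def UALL : ℕ := 7976736637487665154346492212262111729255319998767063680521761302970520277100112818214435486896595926895150871317024882829669295269555452988655576103155133596590262826139912921673104801246894557094163644670294546030329215910089693282214009818072623056158720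

/-- The closure of `UALL` together with the centre cell under the eight symmetries of the window that
fix the centre cell. -/
def REG : ℕ := 85649557513195821591542232924812451597520766321507171985223677236158013748795789051955464051373014354517714765963370975170592567877409885305988803443466613868183951690521219971892394573252918467835740359089826870709617659438128381507950348311869659618510998670934016

/-- The number of window cells of a mask, in a form that the kernel evaluates. -/
def popc (u : ℕ) : ℕ := ((List.range 1024).filter (fun i => u.testBit i)).length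

theorem card_dec_le (u : ℕ) : (dec u).card ≤ popc u := by
  unfold dec popc
  refine le_trans Finset.card_image_le ?_
  rw [Finset.card_def, Finset.filter_val, Finset.range_val, Multiset.range, Multiset.filter_coe,
    Multiset.coe_card]
  simp

theorem popc_UALL : popc UALL = 294 := by decide +kernel

theorem reg_A : REG.testBit 528 = true := by decide +kernel

theorem reg_of_uall (j : ℕ) (h : UALL.testBit j = true) : REG.testBit j = true := by
  have h1 : Nat.beq (UALL ||| REG) REG = true := by decide +kernel
  rw [← Nat.eq_of_beq_eq_true h1, Nat.testBit_or, h, Bool.true_or]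

/-- `Good m`: on every board that contains the cells of `REG` and at least 591 cells, Maker, owning
the single cell `cA`, wins against any Breaker stone outside the mask `m`. -/
def Good (m : ℕ) : Prop :=
  ∀ (Bd : Set (ℤ × ℤ)) (F : Finset (ℤ × ℤ)), (∀ x ∈ F, x ∈ Bd) → RegIn Bd REG → 591 ≤ F.card →
    ∀ d, d ≠ cA → OutM m d → MakerWins Bd {cA} {d}

theorem good_of_ok {u m : ℕ} (hU : Nat.beq (u ||| UALL) UALL = true)
    (h : Ok (2 ^ 528) u (some m)) : Good m := by
  intro Bd F hF hreg hcard d hd hout
  have hsubU : ∀ j, u.testBit j = true → UALL.testBit j = true := by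
    intro j hj
    rw [← Nat.eq_of_beq_eq_true hU, Nat.testBit_or, hj, Bool.true_or]
  have h1 : d ∉ dec (2 ^ 528) := by
    rw [dec_A, Finset.mem_singleton]
    exact hd
  have hreg' : RegIn Bd (2 ^ 528 ||| u) := by
    intro j hj hbit
    apply hreg j hj
    rw [Nat.testBit_or, Bool.or_eq_true] at hbit
    rcases hbit with hb | hb
    · rw [Nat.testBit_two_pow] at hb
      simp only [decide_eq_true_eq] at hb
      rw [← hb]
      exact reg_A
    · exact reg_of_uall j (hsubU j hb)
  have hc : (dec (2 ^ 528)).card + (∅ : Finset (ℤ × ℤ)).card + 2 * (dec u).card + 2 ≤ F.card := by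
    have h2 : (dec u).card ≤ 294 :=
      le_trans (card_dec_mono hsubU) (le_trans (card_dec_le UALL) (le_of_eq popc_UALL))
    rw [dec_A]
    simp only [Finset.card_singleton, Finset.card_empty]
    omega
  have := h.2 Bd F hF hreg' ∅ hc (fun _ _ _ => Finset.notMem_empty _)
    (fun _ _ => Finset.notMem_empty _) d h1 (Finset.notMem_empty _) hout
  rw [dec_A] at this
  exact this

theorem good_of_ok' {C u m : ℕ} (hC : Nat.beq C (2 ^ 528) = true)
    (hU : Nat.beq (u ||| UALL) UALL = true) (h : Ok C u (some m)) : Good m := by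
  have hC' : C = 2 ^ 528 := Nat.eq_of_beq_eq_true hC
  rw [hC'] at h
  exact good_of_ok hU h

theorem goods_nil : ∀ m ∈ ([] : List ℕ), Good m :=
  fun _ h => absurd h List.not_mem_nil

theorem goods_cons {m : ℕ} {l : List ℕ} (h : Good m) (hl : ∀ x ∈ l, Good x) : ∀ x ∈ m :: l, Good x := by
  intro x hx
  rw [List.mem_cons] at hx
  rcases hx with rfl | hx
  · exact h
  · exact hl x hx

/-- Transport of a Maker win along a bijection of the cells preserving allowed copies; the board is
transported as well. -/
theorem makerWins_map (e : (ℤ × ℤ) ≃ (ℤ × ℤ))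
    (hcopy : ∀ W, IsCopy W → IsCopy (W.map e.toEmbedding))
    {Bd : Set (ℤ × ℤ)} {M B : Finset (ℤ × ℤ)} (h : MakerWins Bd M B) :
    MakerWins (e.symm ⁻¹' Bd) (M.map e.toEmbedding) (B.map e.toEmbedding) := by
  induction h with
  | win M B c hc hcM hcB hW =>
    obtain ⟨W, hW, hWB, hsub⟩ := hW
    refine MakerWins.win _ _ (e c) (by simpa using hc) ?_ ?_ ⟨W.map e.toEmbedding, hcopy W hW, ?_, ?_⟩
    · rw [mem_map_e]; exact hcM
    · rw [mem_map_e]; exact hcB
    · intro x hx
      rw [Finset.mem_map] at hx
      obtain ⟨w, hw, rfl⟩ := hx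
      simpa using hWB w hw
    · rw [map_ins]
      exact Finset.map_subset_map.2 hsub
  | step M B c hc hcM hcB hex _ ih =>
    obtain ⟨d, hdBd, hd1, hd2⟩ := hex
    refine MakerWins.step _ _ (e c) (by simpa using hc) ?_ ?_ ⟨e d, by simpa using hdBd, ?_, ?_⟩ ?_
    · rw [mem_map_e]; exact hcM
    · rw [mem_map_e]; exact hcB
    · rw [map_ins, mem_map_e]; exact hd1
    · rw [mem_map_e]; exact hd2
    · intro d' hd'Bd hd'1 hd'2
      have hd' : d' = e (e.symm d') := by simp
      have h1 : e.symm d' ∉ insert c M := by
        intro hmem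
        apply hd'1
        rw [map_ins, hd', mem_map_e]
        exact hmem
      have h2 : e.symm d' ∉ B := by
        intro hmem
        apply hd'2
        rw [hd', mem_map_e]
        exact hmem
      have := ih (e.symm d') hd'Bd h1 h2
      rw [← map_ins, ← map_ins, ← hd'] at this
      exact this

theorem good_img (e : (ℤ × ℤ) ≃ (ℤ × ℤ)) (gi : ℕ → ℕ) (hfix : e cA = cA) (hinv : ∀ d, e (e d) = d)
    (hcopy : ∀ W, IsCopy W → IsCopy (W.map e.toEmbedding))
    (hgi : ∀ j, j < 1024 → gi j < 1024 → cellOf (gi j) = e (cellOf j))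
    (hsym : imgOK gi REG REG = true)
    {m m' : ℕ} (hg : Good m) (hok : imgOK gi m m' = true) : Good m' := by
  intro Bd F hF hR hcard d hd hout
  have key : OutM m (e d) := by
    intro j hj hjd
    by_contra hne
    have hbit : m.testBit j = true := eq_true_of_ne_false hne
    unfold imgOK at hok
    rw [List.all_eq_true] at hok
    have h1 := hok j (List.mem_range.2 hj)
    rw [hbit] at h1
    simp only [Bool.not_true, Bool.false_or, Bool.and_eq_true, Nat.blt_eq] at h1
    have h2 : cellOf (gi j) = d := by rw [hgi j hj h1.1, hjd, hinv]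
    have h3 := hout (gi j) h1.1 h2
    rw [h1.2] at h3
    exact absurd h3 (by simp)
  have hne : e d ≠ cA := by
    intro h
    apply hd
    rw [← hinv d, h, hfix]
  have hF' : ∀ x ∈ F.map e.symm.toEmbedding, x ∈ e ⁻¹' Bd := by
    intro x hx
    rw [Finset.mem_map] at hx
    obtain ⟨y, hy, rfl⟩ := hx
    simpa using hF y hy
  have hR' : RegIn (e ⁻¹' Bd) REG := by
    intro j hj hbit
    unfold imgOK at hsym
    rw [List.all_eq_true] at hsym
    have h1 := hsym j (List.mem_range.2 hj)
    rw [hbit] at h1
    simp only [Bool.not_true, Bool.false_or, Bool.and_eq_true, Nat.blt_eq] at h1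
    have h2 := hR (gi j) h1.1 h1.2
    rw [hgi j hj h1.1] at h2
    exact h2
  have hw := makerWins_map e hcopy
    (hg (e ⁻¹' Bd) (F.map e.symm.toEmbedding) hF' hR' (by rw [Finset.card_map]; exact hcard) (e d) hne key)
  rw [Finset.map_singleton, Finset.map_singleton] at hw
  simp only [Equiv.coe_toEmbedding] at hw
  rw [hfix, hinv] at hw
  have hb : e.symm ⁻¹' (e ⁻¹' Bd) = Bd := by
    ext x
    simp
  rw [hb] at hw
  exact hw

theorem symT : imgOK iT REG REG = true := by decide +kernel
theorem symX : imgOK iX REG REG = true := by decide +kernel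
theorem symY : imgOK iY REG REG = true := by decide +kernel

theorem good_T {m m' : ℕ} (hg : Good m) (hok : imgOK iT m m' = true) : Good m' :=
  good_img eT iT rfl (fun _ => rfl) copy_T iT_spec symT hg hok

theorem good_X {m m' : ℕ} (hg : Good m) (hok : imgOK iX m m' = true) : Good m' :=
  good_img eX iX (by unfold eX cA; simp) (fun d => eX.left_inv d) copy_X iX_spec symX hg hok

theorem good_Y {m m' : ℕ} (hg : Good m) (hok : imgOK iY m m' = true) : Good m' :=
  good_img eY iY (by unfold eY cA; simp) (fun d => eY.left_inv d) copy_Y iY_spec symY hg hok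

/-- If the masks of a nonempty list are all good and their intersection is contained in the mask `r`,
then the mask `r` is good. -/
theorem cover (ML : List ℕ) (m0 : ℕ) (hm0 : m0 ∈ ML) (hg : ∀ m ∈ ML, Good m) (r : ℕ)
    (hand : ML.foldl (fun x y => x &&& y) m0 = r) : Good r := by
  intro Bd F hF hR hcard d hd hr
  by_cases hwin : ∃ j, j < 1024 ∧ cellOf j = d
  · obtain ⟨j, hj, hjd⟩ := hwin
    have hrj := hr j hj hjd
    rw [← hand] at hrj
    rcases foldl_and_bit ML _ j hrj with h1 | ⟨m, hm, hb⟩
    · refine hg m0 hm0 Bd F hF hR hcard d hd ?_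
      intro j' _ hj'd
      have : j' = j := cellOf_inj (hj'd.trans hjd.symm)
      rw [this]
      exact h1
    · refine hg m hm Bd F hF hR hcard d hd ?_
      intro j' _ hj'd
      have : j' = j := cellOf_inj (hj'd.trans hjd.symm)
      rw [this]
      exact hb
  · refine hg m0 hm0 Bd F hF hR hcard d hd ?_
    intro j hj hjd
    exact absurd ⟨j, hj, hjd⟩ hwin

/-- From the empty board: if the empty mask is good, Maker wins on every board that contains the cells
of `REG` and at least 591 cells. -/
theorem wins_of_good (h : Good 0) {Bd : Set (ℤ × ℤ)} {F : Finset (ℤ × ℤ)} (hF : ∀ x ∈ F, x ∈ Bd)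
    (hreg : RegIn Bd REG) (hcard : 591 ≤ F.card) : MakerWins Bd ∅ ∅ := by
  have hc : cellOf 528 = cA := rfl
  have hA : cA ∈ Bd := by
    rw [← hc]
    exact hreg 528 (by norm_num) reg_A
  refine MakerWins.step ∅ ∅ cA hA (Finset.notMem_empty _) (Finset.notMem_empty _)
    (exists_reply hF _ _ ?_) ?_
  · have h1 : (insert cA (∅ : Finset (ℤ × ℤ))).card ≤ 1 := by simp
    have h2 : (∅ : Finset (ℤ × ℤ)).card = 0 := Finset.card_empty
    omega
  · intro d _ hd1 _
    have hd : d ≠ cA := by
      intro h'
      apply hd1
      rw [h']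
      exact Finset.mem_insert_self _ _
    have key := h Bd F hF hreg hcard d hd (outM_zero d)
    simpa using key

end Vale.Agent.Lib.P062.B
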