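import Vale.Agent.Lib.P062.B.Full

namespace Vale.Agent.Lib.P062.B

/-- Maker wins the Snaky achievement game on the empty infinite board. -/
theorem snaky_univ : MakerWins Set.univ ∅ ∅ := by
  refine wins_of_good coreFull (F := (Finset.range 591).map ⟨fun n : ℕ => ((n : ℤ), (0 : ℤ)), ?_⟩)
    (fun _ _ => Set.mem_univ _) (fun _ _ _ => Set.mem_univ _) ?_
  · intro a b hab
    simpa using hab
  · rw [Finset.card_map, Finset.card_range]

/-- The 25 x 25 board whose centre is the centre cell `cA = (16, 16)` of the window. -/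
def boxC : Set (ℤ × ℤ) := {c | 4 ≤ c.1 ∧ c.1 ≤ 28 ∧ 4 ≤ c.2 ∧ c.2 ≤ 28}

theorem reg_box : RegIn boxC REG := by
  have hall : (List.range 1024).all (fun j => !REG.testBit j ||
      (Nat.ble 4 (j % 32) && Nat.ble (j % 32) 28 && Nat.ble 4 (j / 32) && Nat.ble (j / 32) 28)) = true := by
    decide +kernel
  intro j hj hbit
  rw [List.all_eq_true] at hall
  have h1 := hall j (List.mem_range.2 hj)
  rw [hbit] at h1
  simp only [Bool.not_true, Bool.false_or, Bool.and_eq_true, Nat.ble_eq] at h1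
  obtain ⟨⟨⟨h1, h2⟩, h3⟩, h4⟩ := h1
  unfold cellOf boxC
  simp only [Set.mem_ofPred_eq]
  omega

/-- Maker wins on every board, in window coordinates, that contains the 25 x 25 square `boxC`. -/
theorem snaky_of_boxC {Bd : Set (ℤ × ℤ)} (hBd : ∀ c, c ∈ boxC → c ∈ Bd) : MakerWins Bd ∅ ∅ := by
  refine wins_of_good coreFull (F := Finset.Icc (4 : ℤ) 28 ×ˢ Finset.Icc (4 : ℤ) 28) ?_
    (fun j hj hbit => hBd _ (reg_box j hj hbit)) ?_
  · intro x hx
    rw [Finset.mem_product, Finset.mem_Icc, Finset.mem_Icc] at hx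
    exact hBd x ⟨hx.1.1, hx.1.2, hx.2.1, hx.2.2⟩
  · rw [Finset.card_product, Int.card_Icc]
    decide

/-- Maker wins the Snaky achievement game, from the empty board, on every board that contains a
25 x 25 square of cells (the square with centre `t`). -/
theorem snaky_square (Bd : Set (ℤ × ℤ)) (t : ℤ × ℤ)
    (hBd : ∀ c : ℤ × ℤ, |c.1 - t.1| ≤ 12 → |c.2 - t.2| ≤ 12 → c ∈ Bd) : MakerWins Bd ∅ ∅ := by
  have h1 : MakerWins ((eTr (t.1 - 16, t.2 - 16)) ⁻¹' Bd) ∅ ∅ := by
    apply snaky_of_boxC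
    rintro ⟨x, y⟩ ⟨h1, h2, h3, h4⟩
    apply hBd
    · simp only [eTr, Equiv.coe_fn_mk, abs_le]
      constructor <;> omega
    · simp only [eTr, Equiv.coe_fn_mk, abs_le]
      constructor <;> omega
  have h2 := makerWins_map (eTr (t.1 - 16, t.2 - 16)) (copy_tr _) h1
  rw [Finset.map_empty] at h2
  have hb : (eTr (t.1 - 16, t.2 - 16)).symm ⁻¹' ((eTr (t.1 - 16, t.2 - 16)) ⁻¹' Bd) = Bd := by
    ext x
    simp
  rw [hb] at h2
  exact h2

end Vale.Agent.Lib.P062.B
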